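import Vale.Agent.P287D.Tw.Tow
import Vale.Agent.P287D.Nc.Bas

/-!
# Resolution of the rational map given by a point with values in the function field
-/

set_option linter.unusedSectionVars false

namespace Vale.Agent.P287D.Tw

open Set Function Topology Filter P287Q P269 P269.Holo MvPolynomial Nc

section alg

variable {J R J' R' K : Type} [Fintype J] [Fintype R] [Fintype J'] [Fintype R'] [DecidableEq R]
  [DecidableEq R'] [Field K] [Algebra ℂ K] {π : J → R} {π' : J' → R'} {ξ : J → K}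

theorem wh_X (j : J) : WHom (bw π) (Pi.single (π j) 1) (X j : MvPolynomial J ℂ) :=
  whom_iff.2 (isWeightedHomogeneous_X ℂ (bw π) j)

theorem wh_prod {ι : Type} (s : Finset ι) {w : J → R → ℤ} {d : ι → R → ℤ}
    {p : ι → MvPolynomial J ℂ} (h : ∀ i, WHom w (d i) (p i)) :
    WHom w (∑ i ∈ s, d i) (∏ i ∈ s, p i) :=
  whom_iff.2 (IsWeightedHomogeneous.prod _ _ _ fun i _ => whom_iff.1 (h i))

/-- Substitution of forms. -/
theorem wh_bind {w : J → R → ℤ} {δ : R' → ℤ} {g : MvPolynomial J' ℂ} (hg : WHom (bw π') δ g)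
    {d : R' → R → ℤ} {S : J' → MvPolynomial J ℂ} (hS : ∀ j, WHom w (d (π' j)) (S j)) :
    WHom w (∑ r, δ r • d r) (bind₁ S g) := by
  rw [whom_iff, g.as_sum, map_sum]
  refine IsWeightedHomogeneous.sum _ _ _ fun α hα => ?_
  rw [bind₁_monomial, ← Finset.prod_subset (Finset.subset_univ α.support) (fun j _ k => by
    rw [Finsupp.notMem_support_iff.1 k, pow_zero]) |>.symm]
  have := (isWeightedHomogeneous_C w (coeff α g)).mul (IsWeightedHomogeneous.prod Finset.univ _ _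
    fun j _ => (whom_iff.1 (hS j)).pow (α j))
  rw [zero_add] at this
  refine Eq.subst (motive := IsWeightedHomogeneous _ _) ?_ this
  simp only [← hg α hα, Finset.sum_smul]
  rw [Finset.sum_comm]
  refine Finset.sum_congr rfl fun j _ => ?_
  rw [Finset.sum_eq_single (π' j) (fun r _ e => by simp [bw, e]) (by simp)]
  simp [bw]

theorem eval_bind (x : J → ℂ) (S : J' → MvPolynomial J ℂ) (g : MvPolynomial J' ℂ) :
    eval x (bind₁ S g) = eval (gv S x) g := aeval_bind₁ x S g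

theorem frm_wh {δ : R → ℤ} {p : MvPolynomial J ℂ} (h : WHom (bw π) δ p) :
    Frm π (fun r => (δ r).toNat) fun x => eval x p := by
  by_cases e : p = 0
  · exact e ▸ ⟨fun _ => by simpa using analyticAt_const, fun _ _ _ => by simp⟩
  · obtain ⟨α, a⟩ := support_nonempty.2 e
    exact frm_eval h fun r => h α a r ▸ Finset.sum_nonneg fun j _ =>
      mul_nonneg (Nat.cast_nonneg _) (by by_cases k : r = π j <;> simp [bw, k])

theorem wh_scl {δ : R → ℤ} {p : MvPolynomial J ℂ} (h : WHom (bw π) δ p) {t : R → ℂ}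
    (ht : IsUnit t) (x : J → ℂ) : eval (scl π t x) p = cha δ t * eval x p := by
  rw [← tw_bw, h.eval_tw ht, cha]

/-- The elements of the field of ratios are quotients of forms. -/
theorem fl_ratio {f : K} (hf : f ∈ fl π ξ) : ∃ δ P Q, WHom (bw π) δ P ∧ WHom (bw π) δ Q ∧
    aeval ξ Q ≠ 0 ∧ aeval ξ P = f * aeval ξ Q := by
  have c : ∀ a : ℂ, WHom (bw π) 0 (C a : MvPolynomial J ℂ) := fun a =>
    whom_iff.2 (isWeightedHomogeneous_C _ a)
  have z : ∀ f : K, f = 0 → ∃ δ P Q, WHom (bw π) δ P ∧ WHom (bw π) δ Q ∧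
      aeval ξ Q ≠ 0 ∧ aeval ξ P = f * aeval ξ Q := fun f e =>
    ⟨0, C 0, C 1, c 0, c 1, by simp, by simp [e]⟩
  induction hf using IntermediateField.adjoin_induction with
  | mem x hx =>
    obtain ⟨j, j', a, rfl⟩ := hx
    by_cases e : ξ j' = 0
    · exact z _ (by rw [e, div_zero])
    · exact ⟨_, X j, X j', wh_X j, a ▸ wh_X j', by simpa using e, by simp [e]⟩
  | algebraMap a => exact ⟨0, C a, C 1, c a, c 1, by simp, by simp⟩
  | add x y _ _ hx hy =>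
    obtain ⟨δ, P, Q, a1, a2, a3, a4⟩ := hx
    obtain ⟨δ', P', Q', b1, b2, b3, b4⟩ := hy
    exact ⟨δ + δ', P * Q' + Q * P', Q * Q',
      whom_iff.2 ((whom_iff.1 (a1.mul b2)).add (whom_iff.1 (a2.mul b1))), a2.mul b2,
      by simp [a3, b3], by simp only [map_add, map_mul, a4, b4]; ring⟩
  | inv x _ hx =>
    obtain ⟨δ, P, Q, a1, a2, a3, a4⟩ := hx
    by_cases e : x = 0
    · exact z _ (by rw [e, inv_zero])
    · exact ⟨δ, Q, P, a2, a1, a4 ▸ mul_ne_zero e a3, by rw [a4, inv_mul_cancel_left₀ e]⟩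
  | mul x y _ _ hx hy =>
    obtain ⟨δ, P, Q, a1, a2, a3, a4⟩ := hx
    obtain ⟨δ', P', Q', b1, b2, b3, b4⟩ := hy
    exact ⟨δ + δ', P * P', Q * Q', a1.mul b1, a2.mul b2, by simp [a3, b3],
      by simp only [map_mul, a4, b4]; ring⟩

/-- A common denominator. -/
theorem fl_forms {ι : Type} [Fintype ι] {ζ : ι → K} (h : ∀ i, ζ i ∈ fl π ξ) :
    ∃ (δ : R → ℤ) (P : ι → MvPolynomial J ℂ) (c : K), c ≠ 0 ∧ (∀ i, WHom (bw π) δ (P i)) ∧
      ∀ i, aeval ξ (P i) = c * ζ i := by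
  classical
  choose δ P Q a1 a2 a3 a4 using fun i => fl_ratio (h i)
  refine ⟨∑ i, δ i, fun i => P i * ∏ k ∈ Finset.univ.erase i, Q k, ∏ i, aeval ξ (Q i),
    Finset.prod_ne_zero_iff.2 fun i _ => a3 i, fun i => ?_, fun i => ?_⟩
  · rw [← Finset.add_sum_erase _ _ (Finset.mem_univ i)]
    exact (a1 i).mul (wh_prod _ a2)
  · rw [map_mul, map_prod, a4, ← Finset.mul_prod_erase _ _ (Finset.mem_univ i)]
    ring

end alg

variable {n m : ℕ} {K : Type} [Field K] [Algebra ℂ K]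

/-- A section over `G ≠ 0` given by polynomials. -/
structure PS {Γ W : Var n} (f : P287Q.Ext Γ W) (S : Γ.J → MvPolynomial W.J ℂ)
    (G : MvPolynomial W.J ℂ) : Prop where
  hom : ∃ d : Γ.R → W.R → ℤ, ∀ j, WHom (bw W.π) (d (Γ.π j)) (S j)
  homG : ∃ μ, WHom (bw W.π) μ G
  inv : ∀ j, S (f.iJ j) = X j
  mem : ∀ x ∈ W.A, eval x G ≠ 0 → gv S x ∈ Γ.A
  orb : ∀ w ∈ Γ.A, eval (w ∘ f.iJ) G ≠ 0 → Orb Γ.π (gv S (w ∘ f.iJ)) w
  ne : ∃ x ∈ W.A, eval x G ≠ 0

namespace PS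

variable {Γ W : Var n} {f : P287Q.Ext Γ W} {S : Γ.J → MvPolynomial W.J ℂ} {G : MvPolynomial W.J ℂ}
  (h : PS f S G)
include h

theorem sec (x : W.J → ℂ) : gv S x ∘ f.iJ = x := funext fun j => by simp [gv, h.inv]

theorem bir : f.Bir :=
  let ⟨d, a⟩ := h.hom
  let ⟨_, b⟩ := h.homG
  ⟨_, _, fun r r' => (d r r').toNat, gv S, frm_wh b, fun j => frm_wh (a j),
    Sct.of_frm (d := fun r r' => (d r r').toNat) (fun j => frm_wh (a j))
      (fun x k => h.mem x k.1 k.2) (fun x _ => h.sec x) fun w k l => h.orb w k l.2, h.ne⟩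

/-- **Generic points ascend.** -/
theorem gp {ξ : W.J → K} (k : Gp W ξ) : Gp Γ fun j => aeval ξ (S j) := by
  obtain ⟨d, a⟩ := h.hom
  obtain ⟨μ, b⟩ := h.homG
  obtain ⟨x, hx, c⟩ := h.ne
  refine ⟨⟨⟨fun r => ?_, fun δ g g1 g2 => ?_⟩, fun δ g g1 g2 => ?_⟩, top_le_iff.1 (k.top.ge.trans ?_)⟩
  · obtain ⟨j, e, l⟩ := Γ.pv.sub (h.mem x hx c) r
    exact ⟨j, e, fun o => l (k.gen _ _ (a j) o x hx)⟩
  · have := k.van _ _ (b.mul (wh_bind g1 a)) fun y hy => by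
      rw [map_mul, eval_bind, mul_eq_zero, or_iff_not_imp_left]
      exact fun l => g2 _ (h.mem y hy l)
    rw [map_mul, aeval_bind₁] at this
    exact (mul_eq_zero.1 this).resolve_left fun o => c (k.gen _ _ b o x hx)
  · refine Γ.van (G := fun w => eval (w ∘ f.iJ) G) (fun w => (an_eval G _).comp (an_pre _ w))
      ⟨_, h.mem x hx c, (h.sec x).symm ▸ c⟩ (fun w _ => .of_an (an_eval g w)) fun w hw l => ?_
    obtain ⟨t, ht, e⟩ := h.orb w hw l
    rw [e, wh_scl g1 ht, ← eval_bind, k.gen _ _ (wh_bind g1 a) ((aeval_bind₁ ξ S g).trans g2) _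
      (f.map w hw), mul_zero]
  · have := fl_comp f.blk fun j => aeval ξ (S j)
    rwa [show (fun j => aeval ξ (S j)) ∘ f.iJ = ξ from funext fun j => by simp [h.inv]] at this

end PS

theorem ps_down {V : Var n} (c : Ctr V) : ∃ k, PS c.down (Sum.elim X c.g) (c.g k) := by
  obtain ⟨y, hy, h0⟩ := c.exists_off
  obtain ⟨k, hk⟩ := ne_iff.1 h0
  have e : ∀ x, gv (Sum.elim X c.g) x = Sum.elim x (gv c.g x) := fun x =>
    funext (Sum.rec (fun j => eval_X j) fun _ => rfl)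
  have ne : ∀ x, eval x (c.g k) ≠ 0 → gv c.g x ≠ 0 := fun x h e => h (congrFun e k)
  refine ⟨k, ⟨fun o => o.elim c.δ fun r => Pi.single r 1, Sum.rec wh_X c.cut.hom⟩,
    ⟨_, c.cut.hom k⟩, fun _ => rfl, fun x hx a => e x ▸ (mem_blA_off (ne x a)).2
      ⟨hx, 1, one_ne_zero, (one_smul _ _).symm⟩, fun w hw a => ?_, y, hy, hk⟩
  obtain ⟨-, s, hs, b⟩ := (mem_blA_off (ne _ a)).1 ((Sum.elim_comp_inl_inr w).symm ▸ hw :
    Sum.elim (w ∘ Sum.inl) (w ∘ Sum.inr) ∈ blA V.A c.g)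
  exact e _ ▸ orb_elim hs (orb_refl _) b

/-- The generic point of a tower. -/
theorem gp_tw {V W : Var n} {ξ : V.J → K} (k : Gp V ξ) (t : Nc.Tw V W) :
    ∃ η : W.J → K, Gp W η ∧ η ∘ t.dn.iJ = ξ := by
  induction t with
  | refl => exact ⟨ξ, k, rfl⟩
  | step t c ih =>
    obtain ⟨η, a, b⟩ := ih
    obtain ⟨_, h⟩ := ps_down c
    refine ⟨_, h.gp a, funext fun j => ?_⟩
    rw [← b]
    exact aeval_X η (t.dn.iJ j)

variable {V : Var n} {Y : Var m}

/-- A point with values in the function field is a rational map. -/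
theorem rat_of {ξ : V.J → K} {ζ : Y.J → K} (k : Gq V ξ) (l : Pt Y ζ) {δ : V.R → ℤ}
    {P : Y.J → MvPolynomial V.J ℂ} (h1 : ∀ j, WHom (bw V.π) δ (P j)) {c : K} (hc : c ≠ 0)
    (h2 : ∀ j, aeval ξ (P j) = c * ζ j) : Rat V Y (gv P) := by
  have l' : Pt Y fun j => aeval ξ (P j) := Sim.pt ⟨fun _ => c, fun _ => hc, h2⟩ l
  refine ⟨fun x _ => .of_an (an_gv P x), ⟨fun _ => δ, fun t ht x _ => funext fun j =>
    wh_scl (h1 j) ht x⟩, fun x hx a => ?_, ?_⟩
  · obtain ⟨_, δ', u, -, b, -⟩ := chow Y.J Y.R Empty Y.π 0 _ _ Y.pv fun τ _ y hy => by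
      rwa [Subsingleton.elim τ 1, tw_one]
    refine (b.zero _ a).2 (funext fun i => (eval_bind x P (u i)).symm.trans ?_)
    exact k.gen _ _ (wh_bind (d := fun _ => δ) (b.hom i) h1) ((aeval_bind₁ ξ P _).trans
      (l'.van _ _ (b.hom i) fun y hy => congrFun ((b.zero y (Y.pv.sub hy)).1 hy) i)) x hx
  · choose σ s1 s2 using l'.nz
    by_contra! a
    refine Finset.prod_ne_zero_iff.2 (fun r _ => s2 r) ((map_prod _ _ _).symm.trans
      (k.van _ _ (wh_prod Finset.univ fun r => h1 (σ r)) fun x hx => ?_))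
    by_contra b
    rw [map_prod] at b
    exact a x hx (ust_of_sel ⟨σ, s1⟩ fun r => Finset.prod_ne_zero_iff.1 b r (Finset.mem_univ r))

theorem ps_gr {δ : V.R → ℤ} {P : Y.J → MvPolynomial V.J ℂ} (h1 : ∀ j, WHom (bw V.π) δ (P j))
    (hs : Rat V Y (gv P)) (hr : Reg V Y (gv P)) : ∃ G, PS (grq hs hr) (Sum.elim X P) G := by
  obtain ⟨x, hx, a⟩ := hs.ne
  obtain ⟨σ, b⟩ := exists_sel a
  have e : ∀ x, gv (Sum.elim X P) x = Sum.elim x (gv P x) := fun x =>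
    funext (Sum.rec (fun j => eval_X j) fun _ => rfl)
  have u : ∀ x, eval x (∏ r, P (σ.1 r)) ≠ 0 → gv P x ∈ Ust Y.π := fun x k =>
    ust_of_sel σ fun r => Finset.prod_ne_zero_iff.1 (map_prod (MvPolynomial.eval x) _ _ ▸ k) r (Finset.mem_univ r)
  exact ⟨∏ r, P (σ.1 r), ⟨Sum.elim (fun r => Pi.single r 1) fun _ => δ, Sum.rec wh_X h1⟩,
    ⟨_, wh_prod _ fun r => h1 _⟩, fun _ => rfl,
    fun x hx k => e x ▸ (gr_mem hs hr hx (u x k)).2 (orb_refl _),
    fun w hw k => e _ ▸ orb_map (orb_refl _) (gr_gen hs hr hw (u _ k)), x, hx,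
    map_prod (MvPolynomial.eval x) _ _ ▸ Finset.prod_ne_zero_iff.2 fun r _ => b r⟩

theorem gp_gr {δ : V.R → ℤ} {P : Y.J → MvPolynomial V.J ℂ} (h1 : ∀ j, WHom (bw V.π) δ (P j))
    {s : (V.J → ℂ) → Y.J → ℂ} (e : s = gv P) (hs : Rat V Y s) (hr : Reg V Y s) {η : V.J → K}
    (a : Gp V η) : (grq hs hr).Bir ∧ Gp (gr hs hr) (Sum.elim η fun j => aeval η (P j)) := by
  subst e
  obtain ⟨G, g⟩ := ps_gr h1 hs hr
  have := g.gp a
  rw [show (fun j => aeval η (Sum.elim X P j)) = Sum.elim η fun j => aeval η (P j) from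
    funext (Sum.rec (fun j => aeval_X η j) fun _ => rfl)] at this
  exact ⟨g.bir, this⟩

theorem gp_gr' {W : Var n} (ι : P287Q.Ext W V) {δ : V.R → ℤ} {P : Y.J → MvPolynomial V.J ℂ}
    (h1 : ∀ j, WHom (bw V.π) δ (P j)) (hs : Rat W Y fun y => gv P (y ∘ ι.iJ))
    (hr : Reg W Y fun y => gv P (y ∘ ι.iJ)) {η : W.J → K} (a : Gp W η) :
    (grq hs hr).Bir ∧ Gp (gr hs hr) (Sum.elim η fun j => aeval (η ∘ ι.iJ) (P j)) := by
  have := gp_gr (P := fun j => bind₁ (fun i => X (ι.iJ i)) (P j)) (fun j => wh_bind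
    (d := fun r => Pi.single (ι.iR r) 1) (h1 j) fun i => ι.blk i ▸ wh_X (π := W.π) (ι.iJ i))
    (funext₂ fun y j => ((eval_bind y _ (P j)).trans (congrArg (MvPolynomial.eval · (P j))
      (funext fun i => eval_X (ι.iJ i)))).symm) hs hr a
  simp only [aeval_bind₁, aeval_X] at this
  exact this

/-- The resolution with its explicit description. -/
theorem rsl {ξ : V.J → K} {ζ : Y.J → K} (k : Gp V ξ) (l : Pt Y ζ) :
    ∃ (r : Rsl V Y ξ ζ) (δ : V.R → ℤ) (P : Y.J → MvPolynomial V.J ℂ), LIso r.q ∧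
      (∀ j, WHom (bw V.π) δ (P j)) ∧ Rat V Y (gv P) ∧
      ∃ (hs : Rat r.U Y fun y => gv P (y ∘ r.t.dn.iJ)) (hr : Reg r.U Y _),
        ((grq hs hr).Iso → r.q.Iso) := by
  obtain ⟨δ, P, c, hc, h1, h2⟩ := fl_forms (π := V.π) (ξ := ξ) (ζ := ζ) fun _ => k.top.ge trivial
  have h := rat_of k.toGq l h1 hc h2
  obtain ⟨W, t, hs, hr⟩ := h.res
  obtain ⟨η, a, rfl⟩ := gp_tw k t
  obtain ⟨c1, c2⟩ := gp_gr' t.dn h1 hs hr a
  have f : Full (grp hs hr) := Sum.rec (fun _ ⟨_, o⟩ => nomatch o) fun j _ => ⟨j, rfl⟩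
  exact ⟨⟨W, t, gr hs hr, grq hs hr, grp hs hr, _, c2, c1, (grq_liso hs hr).bij, f, Sim.refl _ _,
    fun _ => c, fun _ => hc, h2⟩, δ, P, grq_liso hs hr, h1, h, hs, hr, id⟩

/-- **MAP** -/
theorem map : MAP := fun _ _ _ _ _ _ _ _ _ k l => let ⟨r, _⟩ := rsl k l; ⟨r⟩

end Vale.Agent.P287D.Tw
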