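import Vale.Agent.P287D.Tw.Map

/-!
# Over projective space the graph is isomorphic to the top of the tower
-/

namespace Vale.Agent.P287D.Tw

open Set Function Topology Filter P287Q P269 P269.Holo MvPolynomial Nc

variable {n m : ℕ}

theorem lift_tw {V W : Var n} {κ : Type} [Fintype κ] {G F : (V.J → ℂ) → κ → ℂ} (h : Lift V G F)
    (t : Nc.Tw V W) : ∃ F', Lift W (fun y => G (y ∘ t.dn.iJ)) F' := by
  induction t with
  | refl => exact ⟨F, h⟩
  | step t c ih => exact let ⟨F', a⟩ := ih; nhs blc n _ κ _ F' c a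

/-- Lifts of all blocks give an isomorphism. -/
theorem grq_iso {W : Var n} {Y : Var m} {s : (W.J → ℂ) → Y.J → ℂ} (hs : Rat W Y s) (hr : Reg W Y s)
    (ha : ∀ y, AnalyticAt ℂ s y)
    (h : ∀ r, ∃ F, Lift W (fun y (k : {j // Y.π j = r}) => s y k.1) F) : (grq hs hr).Iso := by
  choose F h using h
  choose d hd using fun r => (h r).eqv
  have ne : ∀ r, ∀ y ∈ W.A, F r y ≠ 0 := fun r y hy => by
    obtain ⟨u, a⟩ := hr y hy
    obtain ⟨x, hx, b⟩ := hs.ne
    refine (h r).ne_zero (P := fun z k => u z k.1) (fun y => (an_pre Subtype.val _).comp (ha y))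
      (let ⟨j, c, e⟩ := b r; ⟨x, hx, fun o => e (congrFun o ⟨j, c⟩)⟩) hy
      (a.hol.comp_an (G := fun p => p ∘ Subtype.val) hy (an_pre _ _))
      (let ⟨j, c, e⟩ := a.ust r; fun o => e (congrFun o ⟨j, c⟩))
      (s := fun z => Classical.epsilon (fun c => s z = scl Y.π c (u z)) r)
      (a.par.mono fun z k hz ⟨i, e⟩ => e ▸ congrFun (Classical.epsilon_spec (k hz)) i)
  have lf : ∀ y ∈ W.A, Lf W Y s (fun z j => F (Y.π j) z ⟨j, rfl⟩) y := fun y hy =>
    ⟨.pi fun j => ((h _).hol y hy).comp_an hy (an_cd _ _), fun r =>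
      let ⟨⟨j, e⟩, a⟩ := ne_iff.1 (ne r y hy)
      ⟨j, e, by subst e; exact a⟩, .of_forall fun z hz => by
        choose c e using fun r => (h r).par z hz
        exact ⟨c, funext fun j => congrFun (e _) ⟨j, rfl⟩⟩⟩
  refine ⟨fun y => Sum.elim y fun j => F (Y.π j) y ⟨j, rfl⟩,
    fun y hy => holOn_elim hy (.of_an analyticAt_id) (lf y hy).hol,
    fun y hy => ⟨hy, _, lf y hy, rfl⟩, fun _ _ => rfl,
    fun w hw hy => gr_orb hs ⟨hy, _, lf _ hy, rfl⟩ hw (orb_refl _),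
    Sum.elim (fun r => Pi.single r 1) d, fun t ht y hy => funext (Sum.rec (fun j => ?_) fun j =>
      congrFun (hd _ t ht y hy) ⟨j, rfl⟩)⟩
  exact congrArg (· * y j) (prod_single t _).symm

theorem hom_of_wh {J : Type} [Fintype J] {δ : Unit → ℤ} {p : MvPolynomial J ℂ}
    (h : WHom (bw fun _ => ()) δ p) : p.IsHomogeneous (δ ()).toNat := fun α a => by
  rw [← h α (mem_support_iff.2 a) (), Finsupp.weight_apply, Finsupp.sum_fintype _ _ (by simp)]
  simp only [bw, Pi.single_eq_same, mul_one, ← Nat.cast_sum, Int.toNat_natCast]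
  simp

/-- **MAPP** -/
theorem mapp : MAPP := fun n _ Y _ _ _ _ _ k l => by
  obtain ⟨r, δ, P, -, h1, h, hs, hr, e⟩ := rsl k l
  refine ⟨r, e (grq_iso hs hr (fun y => an_gv' (an_pre _ y)) fun b => ?_)⟩
  obtain ⟨x, -, a⟩ := h.ne
  obtain ⟨j, c, d⟩ := a b
  obtain ⟨F, f⟩ := nh0 n _ {j // Y.π j = b} (fun j => P j.1) (fun j => hom_of_wh (h1 j.1))
    ⟨⟨j, c⟩, fun o => d (by simp [gv, show P j = 0 from o])⟩
  exact lift_tw f r.t

end Vale.Agent.P287D.Tw
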