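import Vale.Agent.P287Q.Us.Tw
import Vale.Agent.P287Q.Top.Bas
import Vale.Agent.P287Q.Top.P4

/-!
# Rational maps between varieties and the graph of a morphism
-/

namespace Vale.Agent.P287D.Tw

open Set Function Topology Filter P287Q P269 P269.Holo P269.Tq P291Z

section crs

variable {I S : Type} {ρ : I → S} {p p' : I → ℂ}

/-- The two points are proportional in each block. -/
def Crs (ρ : I → S) (p p' : I → ℂ) : Prop := ∀ j j', ρ j = ρ j' → p j * p' j' = p j' * p' j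

theorem crs_scl (a b : S → ℂ) (u : I → ℂ) : Crs ρ (scl ρ a u) (scl ρ b u) := fun j j' e => by
  simp only [scl, e]; ring

theorem orb_crs (h : Orb ρ p p') : Crs ρ p p' := by
  obtain ⟨t, -, rfl⟩ := h
  exact fun j j' e => by simp only [scl, e]; ring

theorem Crs.scl (h : Crs ρ p p') (hp : p ∈ Ust ρ) : ∃ t, p' = scl ρ t p := by
  choose c c1 c2 using hp
  refine ⟨fun r => p' (c r) / p (c r), funext fun j => ?_⟩
  rw [P287Q.scl, div_mul_eq_mul_div, eq_div_iff (c2 _), mul_comm, mul_comm (p' _)]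
  exact h _ _ (c1 _)

theorem Crs.orb [Fintype I] [Fintype S] (h : Crs ρ p p') (hp : p ∈ Ust ρ) (hp' : p' ∈ Ust ρ) :
    Orb ρ p p' :=
  let ⟨t, e⟩ := h.scl hp
  ⟨t, unit_of_mem (e ▸ hp'), e⟩

theorem Crs.lim {α : Type*} {l : Filter α} {F G : α → I → ℂ} (hF : Tendsto F l (𝓝 p))
    (hG : Tendsto G l (𝓝 p')) (h : ∃ᶠ z in l, Crs ρ (F z) (G z)) : Crs ρ p p' := fun j j' e =>
  tendsto_nhds_unique_of_frequently_eq
    ((tendsto_pi_nhds.1 hF j).mul (tendsto_pi_nhds.1 hG j'))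
    ((tendsto_pi_nhds.1 hF j').mul (tendsto_pi_nhds.1 hG j)) (h.mono fun _ k => k j j' e)

theorem exists_sel (hp : p ∈ Ust ρ) : ∃ σ : Sel ρ, ∀ r, p (σ.1 r) ≠ 0 := by
  choose c c1 c2 using hp
  exact ⟨⟨c, c1⟩, c2⟩

theorem ust_of_sel (σ : Sel ρ) (h : ∀ r, p (σ.1 r) ≠ 0) : p ∈ Ust ρ := fun r => ⟨_, σ.2 r, h r⟩

end crs

variable {n m : ℕ}

/-- **A rational map** `V ⇢ Y` given by holomorphic sections on the multicone. -/
structure Rat (V : Var n) (Y : Var m) (s : (V.J → ℂ) → Y.J → ℂ) : Prop where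
  hol : ∀ x ∈ V.A, HolOn V.A s x
  eqv : ∃ d : Y.R → V.R → ℤ, ∀ t, IsUnit t → ∀ x ∈ V.A,
    s (scl V.π t x) = scl Y.π (fun r => cha (d r) t) (s x)
  mem : ∀ x ∈ V.A, s x ∈ Ust Y.π → s x ∈ Y.A
  ne : ∃ x ∈ V.A, s x ∈ Ust Y.π

/-- Near `x` the map `s` is proportional, block by block, to `u`, and no block of `u x` vanishes. -/
structure Lf (V : Var n) (Y : Var m) (s u : (V.J → ℂ) → Y.J → ℂ) (x : V.J → ℂ) : Prop where
  hol : HolOn V.A u x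
  ust : u x ∈ Ust Y.π
  par : ∀ᶠ z in 𝓝 x, z ∈ V.A → ∃ c, s z = scl Y.π c (u z)

/-- The rational map is a morphism. -/
def Reg (V : Var n) (Y : Var m) (s : (V.J → ℂ) → Y.J → ℂ) : Prop := ∀ x ∈ V.A, ∃ u, Lf V Y s u x

/-- The projection is a local isomorphism, bijective on points. -/
structure LIso {Γ W : Var n} (q : Ext Γ W) : Prop where
  loc : ∀ w ∈ Γ.A, ∃ σ : (W.J → ℂ) → Γ.J → ℂ, HolOn W.A σ (w ∘ q.iJ) ∧ σ (w ∘ q.iJ) = w ∧
    ∀ᶠ y in 𝓝 (w ∘ q.iJ), y ∈ W.A → σ y ∈ Γ.A ∧ σ y ∘ q.iJ = y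
  surj : ∀ y ∈ W.A, ∃ w ∈ Γ.A, w ∘ q.iJ = y
  orb : ∀ w ∈ Γ.A, ∀ w' ∈ Γ.A, Orb W.π (w ∘ q.iJ) (w' ∘ q.iJ) → Orb Γ.π w w'

variable {V : Var n} {Y : Var m} {s u u' : (V.J → ℂ) → Y.J → ℂ} {x : V.J → ℂ} {p p' : Y.J → ℂ}

theorem holOn_scl {W J R : Type} [NormedAddCommGroup W] [NormedSpace ℂ W] [Fintype J] [Fintype R]
    {π : J → R} {A : Set W} {a : W → R → ℂ} {f : W → J → ℂ} {x : W} (hx : x ∈ A)
    (ha : HolOn A a x) (hf : HolOn A f x) : HolOn A (fun z => scl π (a z) (f z)) x :=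
  (ha.prod hf).comp_an hx (an_scl (P := (R → ℂ) × (J → ℂ)) analyticAt_fst analyticAt_snd)

theorem holOn_elim {W J J' : Type} [NormedAddCommGroup W] [NormedSpace ℂ W] [Fintype J] [Fintype J']
    {A : Set W} {a : W → J → ℂ} {f : W → J' → ℂ} {x : W} (hx : x ∈ A)
    (ha : HolOn A a x) (hf : HolOn A f x) : HolOn A (fun z => Sum.elim (a z) (f z)) x :=
  (ha.prod hf).comp_an hx (an_elim (P := (J → ℂ) × (J' → ℂ)) analyticAt_fst analyticAt_snd)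

theorem holOn_sel {W J R : Type} [NormedAddCommGroup W] [NormedSpace ℂ W] [Fintype J] [Fintype R]
    {A : Set W} {f : W → J → ℂ} {x : W} (hx : x ∈ A) (hf : HolOn A f x) (σ : R → J) :
    HolOn A (fun z => ∏ r, f z (σ r)) x :=
  hf.comp_an (G := fun y => ∏ r, y (σ r)) hx (Finset.analyticAt_fun_prod _ fun _ _ => an_cd _ _)

theorem Rat.freq (h : Rat V Y s) (hx : x ∈ V.A) : ∃ᶠ z in 𝓝[V.A] x, s z ∈ Ust Y.π := by
  obtain ⟨y, hy, a⟩ := h.ne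
  obtain ⟨σ, b⟩ := exists_sel a
  exact (freq_ne V.conn.2 V.mfd (fun z hz => holOn_sel hz (h.hol z hz) σ.1)
    ⟨y, hy, Finset.prod_ne_zero_iff.2 fun r _ => b r⟩ hx).mono fun z k =>
      ust_of_sel σ fun r => Finset.prod_ne_zero_iff.1 k r (Finset.mem_univ r)

namespace Lf

theorem ev (h : Lf V Y s u x) (hx : x ∈ V.A) : ∀ᶠ z in 𝓝 x, z ∈ V.A → Lf V Y s u z := by
  filter_upwards [holOn_ev h.hol, h.hol.ev hx (isOpen_Ust.mem_nhds h.ust), h.par.eventually_nhds]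
    with z a b c hz using ⟨a, b hz, c⟩

theorem orb0 (h : Lf V Y s u x) (hx : x ∈ V.A) (a : s x ∈ Ust Y.π) : Orb Y.π (u x) (s x) :=
  let ⟨c, e⟩ := h.par.self_of_nhds hx
  ⟨c, unit_of_mem (e ▸ a), e⟩

theorem smul (h : Lf V Y s u x) (hx : x ∈ V.A) {t : Y.R → ℂ} (ht : IsUnit t) :
    Lf V Y s (fun z => scl Y.π t (u z)) x :=
  ⟨holOn_scl hx (.of_an analyticAt_const) h.hol, scl_mem_Ust ht h.ust,
    h.par.mono fun z a hz => let ⟨c, e⟩ := a hz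
      ⟨c * t⁻¹, by rw [scl_mul, scl_inv_scl ht, e]⟩⟩

theorem self (h : Rat V Y s) (hx : x ∈ V.A) (a : s x ∈ Ust Y.π) : Lf V Y s s x :=
  ⟨h.hol x hx, a, .of_forall fun _ _ => ⟨1, (scl_one _).symm⟩⟩

variable (hs : Rat V Y s)
include hs

theorem freq (h : Lf V Y s u x) (hx : x ∈ V.A) :
    ∃ᶠ z in 𝓝[V.A] x, z ∈ V.A ∧ s z ∈ Ust Y.π ∧ Orb Y.π (u z) (s z) :=
  ((hs.freq hx).and_eventually ((eventually_nhdsWithin_iff.2 (h.ev hx)).and
    self_mem_nhdsWithin)).mono fun _ k => ⟨k.2.2, k.1, k.2.1.orb0 k.2.2 k.1⟩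

theorem uniq (h : Lf V Y s u x) (h' : Lf V Y s u' x) (hx : x ∈ V.A) : Orb Y.π (u x) (u' x) :=
  (Crs.lim (h.hol.tendsto hx) (h'.hol.tendsto hx) (((h.freq hs hx).and_eventually
    (eventually_nhdsWithin_iff.2 (h'.ev hx))).mono fun _ k =>
      orb_crs (k.1.2.2.trans (k.2.orb0 k.1.1 k.1.2.1).symm))).orb h.ust h'.ust

theorem mem (h : Lf V Y s u x) (hx : x ∈ V.A) : u x ∈ Y.A :=
  Y.pv.cl _ (mem_closure_of_frequently_of_tendsto ((h.freq hs hx).mono fun _ k =>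
    k.2.2.symm.mem Y.pv.inv (hs.mem _ k.1 k.2.1)) (h.hol.tendsto hx)) h.ust

theorem scl (h : Lf V Y s u x) (hx : x ∈ V.A) {t : V.R → ℂ} (ht : IsUnit t) :
    Lf V Y s (fun z => u (scl V.π t⁻¹ z)) (scl V.π t x) := by
  obtain ⟨d, hd⟩ := hs.eqv
  have a : AnalyticAt ℂ (fun z => P287Q.scl V.π t⁻¹ z) (P287Q.scl V.π t x) :=
    an_scl analyticAt_const analyticAt_id
  have e := scl_inv_scl (π := V.π) ht x
  refine ⟨HolOn.comp (F := fun z => P287Q.scl V.π t⁻¹ z) (e.symm ▸ h.hol) (.of_an a)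
    (V.pv.inv t ht x hx) (.of_forall (V.pv.inv _ (unit_inv ht))), e.symm ▸ h.ust,
    (a.continuousAt.eventually (e.symm ▸ h.par)).mono fun z k hz => ?_⟩
  obtain ⟨c, b⟩ := k (V.pv.inv _ (unit_inv ht) z hz)
  exact ⟨_ * c, by rw [scl_mul, ← b, ← hd t ht _ (V.pv.inv _ (unit_inv ht) z hz), scl_scl_inv ht]⟩

end Lf

/-- The values of the rational map at `x`. -/
def Val (V : Var n) (Y : Var m) (s : (V.J → ℂ) → Y.J → ℂ) (x : V.J → ℂ) : Set (Y.J → ℂ) :=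
  {p | ∃ u, Lf V Y s u x ∧ u x = p}

theorem Lf.val_iff (hs : Rat V Y s) (h : Lf V Y s u x) (hx : x ∈ V.A) :
    p ∈ Val V Y s x ↔ Orb Y.π (u x) p :=
  ⟨fun ⟨_, a, b⟩ => b ▸ h.uniq hs a hx, fun ⟨_, a, b⟩ => ⟨_, h.smul hx a, b.symm⟩⟩

theorem Rat.val_scl (hs : Rat V Y s) (hx : x ∈ V.A) (hp : p ∈ Val V Y s x) {t : V.R → ℂ}
    (ht : IsUnit t) : p ∈ Val V Y s (scl V.π t x) :=
  let ⟨_, a, b⟩ := hp
  ⟨_, a.scl hs hx ht, by rw [scl_inv_scl ht, b]⟩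

theorem scl_map {J R I S : Type} (π : J → R) (ρ : I → S) (a : R → ℂ) (b : S → ℂ) (x : J → ℂ)
    (p : I → ℂ) : scl (Sum.map π ρ) (Sum.elim a b) (Sum.elim x p) =
      Sum.elim (scl π a x) (scl ρ b p) := funext (Sum.rec (fun _ => rfl) fun _ => rfl)

theorem ust_map {J R I S : Type} {π : J → R} {ρ : I → S} {w : J ⊕ I → ℂ} :
    w ∈ Ust (Sum.map π ρ) ↔ w ∘ .inl ∈ Ust π ∧ w ∘ .inr ∈ Ust ρ := by
  refine ⟨fun h => ⟨fun r => ?_, fun r => ?_⟩, fun h => Sum.rec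
    (fun r => let ⟨j, a, b⟩ := h.1 r; ⟨.inl j, congrArg _ a, b⟩)
    fun r => let ⟨j, a, b⟩ := h.2 r; ⟨.inr j, congrArg _ a, b⟩⟩
  · obtain ⟨j | j, a, b⟩ := h (.inl r)
    exacts [⟨j, Sum.inl.inj a, b⟩, nomatch a]
  · obtain ⟨j | j, a, b⟩ := h (.inr r)
    exacts [(nomatch a), ⟨j, Sum.inr.inj a, b⟩]

theorem orb_map {J R I S : Type} [Fintype R] [Fintype S] {π : J → R} {ρ : I → S}
    {w w' : J ⊕ I → ℂ} (h : Orb π (w ∘ .inl) (w' ∘ .inl)) (h' : Orb ρ (w ∘ .inr) (w' ∘ .inr)) :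
    Orb (Sum.map π ρ) w w' :=
  let ⟨a, b, c⟩ := h
  let ⟨a', b', c'⟩ := h'
  ⟨Sum.elim a a', unit_iff.2 (Sum.rec (unit_iff.1 b) (unit_iff.1 b')),
    funext (Sum.rec (congrFun c) (congrFun c'))⟩

section graph

variable (hs : Rat V Y s) (hr : Reg V Y s)
include hs

theorem gr_orb {w w' : V.J ⊕ Y.J → ℂ} (hw : w ∈ grA V.A (Val V Y s))
    (hw' : w' ∈ grA V.A (Val V Y s)) (e : Orb V.π (w ∘ .inl) (w' ∘ .inl)) :
    Orb (Sum.map V.π Y.π) w w' := by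
  refine orb_map e ?_
  obtain ⟨t, ht, e⟩ := e
  obtain ⟨u, a, b⟩ := hs.val_scl hw.1 hw.2 ht
  exact b ▸ (a.val_iff hs (V.pv.inv t ht _ hw.1)).1 (e ▸ hw'.2)

include hr

theorem gr_mc : MC (Sum.map V.π Y.π) (grA V.A (Val V Y s)) where
  sub w a := ust_map.2 ⟨V.pv.sub a.1, let ⟨_, b, c⟩ := a.2; c ▸ b.ust⟩
  inv t ht w a := by
    have b := V.pv.inv _ (unit_comp ht .inl) _ a.1
    obtain ⟨u, c, d⟩ := hs.val_scl a.1 a.2 (unit_comp ht .inl)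
    exact ⟨b, (c.val_iff hs b).2 ⟨_, unit_comp ht .inr, d ▸ rfl⟩⟩
  cl w a b := by
    obtain ⟨b1, b2⟩ := ust_map.1 b
    have c : w ∘ .inl ∈ V.A := V.pv.cl _ (map_mem_closure (f := fun s : V.J ⊕ Y.J → ℂ => s ∘ .inl)
      (by fun_prop) a fun _ d => d.1) b1
    obtain ⟨u, d⟩ := hr _ c
    have t : Tendsto (fun z : V.J ⊕ Y.J → ℂ => z ∘ .inl) (𝓝[grA V.A (Val V Y s)] w)
        (𝓝[V.A] (w ∘ .inl)) := tendsto_nhdsWithin_iff.2
      ⟨(an_inl w).continuousAt.tendsto.mono_left nhdsWithin_le_nhds,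
        eventually_mem_nhdsWithin.mono fun _ k => k.1⟩
    have := mem_closure_iff_nhdsWithin_neBot.1 a
    refine ⟨c, (d.val_iff hs c).2 ((Crs.lim ((d.hol.tendsto c).comp t)
      ((an_inr w).continuousAt.tendsto.mono_left nhdsWithin_le_nhds) (Eventually.frequently ?_)).orb
        d.ust b2)⟩
    filter_upwards [t.eventually (eventually_nhdsWithin_iff.2 (d.ev c)), self_mem_nhdsWithin]
      with z k hz using orb_crs ((k.val_iff hs hz.1).1 hz.2)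

theorem gr_pv : PV (Sum.map V.π Y.π) (grA V.A (Val V Y s)) n := by
  refine ⟨gr_mc hs hr, fun w ⟨hw, u, a, b⟩ => ?_⟩
  obtain ⟨σ, c⟩ := exists_sel a.ust
  have m1 : MfdAt (V.A ×ˢ univ) (n + Fintype.card (V.R ⊕ Y.R)) (w ∘ .inl, (1 : Y.R → ℂ)) := by
    have := (V.pv.mfd _ hw).prod (MfdAt.univ (1 : Y.R → ℂ))
    rwa [Module.finrank_fintype_fun_eq_card, add_assoc, ← Fintype.card_sum] at this
  have e : Sum.elim (w ∘ .inl) (scl Y.π 1 (u (w ∘ .inl))) = w := by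
    rw [scl_one, b, Sum.elim_comp_inl_inr]
  have o := (a.ev hw).and (a.hol.ev hw (p := fun y => ∀ r, y (σ.1 r) ≠ 0)
    (eventually_all.2 fun r => (continuous_apply _).continuousAt.eventually_ne (c r)))
  have hu : HolOn (grA V.A (Val V Y s)) (fun z => u (z ∘ .inl)) w :=
    a.hol.comp (F := fun z : V.J ⊕ Y.J → ℂ => z ∘ .inl) (.of_an (an_inl w)) ⟨hw, u, a, b⟩
      (.of_forall fun _ k => k.1)
  have := m1.iso' (S' := grA V.A (Val V Y s)) (F := fun z => Sum.elim z.1 (scl Y.π z.2 (u z.1)))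
    (G := fun z => (z ∘ .inl, fun r => z (.inr (σ.1 r)) / u (z ∘ .inl) (σ.1 r)))
    (holOn_elim m1.mem (.of_an analyticAt_fst) (holOn_scl m1.mem (.of_an analyticAt_snd)
      (a.hol.comp (F := Prod.fst) (.of_an analyticAt_fst) m1.mem (.of_forall fun _ k => k.1))))
    ?_ ?_ ?_
  · rwa [e] at this
  · rw [e]
    refine (HolOn.of_an (an_inl w)).prod (.pi fun r => ?_)
    exact ((HolOn.of_an analyticAt_id).prod hu).comp_an
      (G := fun z : (V.J ⊕ Y.J → ℂ) × (Y.J → ℂ) => z.1 (.inr (σ.1 r)) / z.2 (σ.1 r)) ⟨hw, u, a, b⟩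
      ((analyticAt_pi_iff.1 analyticAt_fst _).div (analyticAt_pi_iff.1 analyticAt_snd _) (c r))
  · filter_upwards [continuousAt_fst.eventually o,
      continuousAt_snd.eventually (eventually_unit isUnit_one)] with z k l hz
    refine ⟨⟨hz.1, ((k.1 hz.1).val_iff hs hz.1).2 ⟨_, l, rfl⟩⟩, Prod.ext rfl (funext fun r => ?_)⟩
    change z.2 _ * _ / _ = _
    rw [σ.2]
    exact mul_div_cancel_right₀ _ (k.2 hz.1 r)
  · rw [e]
    filter_upwards [(an_inl w).continuousAt.eventually o] with z k hz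
    obtain ⟨t, -, l⟩ := ((k.1 hz.1).val_iff hs hz.1).1 hz.2
    refine ⟨⟨hz.1, trivial⟩, ?_⟩
    have : (fun r => z (.inr (σ.1 r)) / u (z ∘ .inl) (σ.1 r)) = t := funext fun r => by
      rw [div_eq_iff (k.2 hz.1 r)]
      exact (congrFun l _).trans (by rw [P287Q.scl, σ.2])
    simp only [this, ← l, Sum.elim_comp_inl_inr]

theorem gr_conn : IsConnected (grA V.A (Val V Y s)) := by
  have h := gr_mc hs hr
  have e : Eqv (scl (Sum.map V.π Y.π)) (scl V.π) (grA V.A (Val V Y s)) V.A fun w => w ∘ .inl :=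
    ⟨fun _ a => a.1, (continuous_pi fun j => continuous_apply _).continuousOn, fun a ha _ _ =>
      ⟨a ∘ .inl, unit_comp ha _, rfl⟩⟩
  have := h.compact
  have := V.t2
  have := V.conn'
  have b : Bijective e.qm := ⟨mk_surj.forall₂.2 fun w w' k => Quot.sound
    (gr_orb hs w.2 w'.2 (V.pv.mk_eq_iff.1 k)), mk_surj.forall.2 fun y =>
      let ⟨u, a⟩ := hr _ y.2
      ⟨Quo.mk _ ⟨Sum.elim y.1 (u y.1), y.2, u, a, rfl⟩, rfl⟩⟩
  have := ((isHomeomorph_iff_continuous_bijective.2 ⟨e.qm.continuous, b⟩).homeomorph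
    _).symm.surjective.connectedSpace (Homeomorph.continuous _)
  exact h.isConnected

/-- **The graph.** -/
abbrev gr : Var n :=
  { J := V.J ⊕ Y.J, R := V.R ⊕ Y.R, π := Sum.map V.π Y.π, A := grA V.A (Val V Y s)
    pv := gr_pv hs hr, conn := gr_conn hs hr }

/-- The first projection. -/
def grq : Ext (gr hs hr) V :=
  ⟨.inl, .inl, Sum.inl_injective, Sum.inl_injective, fun _ => rfl, fun _ a => a.1⟩

/-- The second projection. -/
def grp : Ext (gr hs hr) Y :=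
  ⟨.inr, .inr, Sum.inr_injective, Sum.inr_injective, fun _ => rfl,
    fun _ ⟨a, _, b, c⟩ => c ▸ b.mem hs a⟩

theorem grq_liso : LIso (grq hs hr) :=
  ⟨fun w ⟨a, u, b, c⟩ => ⟨fun y => Sum.elim y (u y), holOn_elim a (.of_an analyticAt_id) b.hol,
    (congrArg _ c).trans (Sum.elim_comp_inl_inr w),
    (b.ev a).mono fun _ k hy => ⟨⟨hy, u, k hy, rfl⟩, rfl⟩⟩,
    fun y hy => let ⟨u, a⟩ := hr y hy; ⟨Sum.elim y (u y), ⟨hy, u, a, rfl⟩, rfl⟩,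
    fun _ a _ b => gr_orb hs a b⟩

theorem gr_mem (hx : x ∈ V.A) (a : s x ∈ Ust Y.π) :
    Sum.elim x p ∈ (gr hs hr).A ↔ Orb Y.π (s x) p :=
  (and_iff_right hx).trans ((Lf.self hs hx a).val_iff hs hx)

theorem gr_gen {w : V.J ⊕ Y.J → ℂ} (hw : w ∈ (gr hs hr).A) (a : s (w ∘ .inl) ∈ Ust Y.π) :
    Orb Y.π (s (w ∘ .inl)) (w ∘ .inr) :=
  ((Lf.self hs hw.1 a).val_iff hs hw.1).1 hw.2

end graph

namespace LIso

variable {Γ W : Var n} {q : Ext Γ W} (h : LIso q)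
include h

theorem bij : Bijective q.q :=
  ⟨Γ.pt_surj.forall₂.2 fun w w' k => Γ.pt_eq.2 (h.orb _ w.2 _ w'.2 (W.pt_eq.1 k)),
    W.pt_surj.forall.2 fun y => let ⟨w, a, b⟩ := h.surj _ y.2
      ⟨Γ.pt ⟨w, a⟩, congrArg W.pt (Subtype.ext b)⟩⟩

theorem pb_bij : Bijective q.pb :=
  haveI := isAct_scl Γ.π
  haveI := isAct_scl W.π
  Γ.qm.bij_map W.qm q.hol h.bij

end LIso

theorem _root_.Vale.Agent.P287Q.Ext.Iso.liso {Γ W : Var n} {q : Ext Γ W} (h : q.Iso) : LIso q := by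
  obtain ⟨σ, h⟩ := h
  refine ⟨fun w hw => ?_, fun y hy => ⟨_, h.mem y hy, h.inv y hy⟩, fun w a w' b ⟨t, c, e⟩ =>
    (h.orb w a (q.map w a)).symm.trans ((h.orb_scl c (q.map w a)).trans
      (e ▸ h.orb w' b (q.map w' b)))⟩
  obtain ⟨t, a, b, c⟩ := h.exists_t q.blk W.pv.sub hw (q.map w hw)
  exact ⟨fun y => scl Γ.π t (σ y), holOn_scl (q.map w hw) (.of_an analyticAt_const)
    (h.hol _ (q.map w hw)), c.symm, .of_forall fun y hy => ⟨Γ.pv.inv t a _ (h.mem y hy), by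
      rw [scl_comp q.blk, b, scl_one, h.inv y hy]⟩⟩

end Vale.Agent.P287D.Tw
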