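import Vale.Agent.P287D.Tw.Gr
import Vale.Agent.P287D.Nc.St
import Vale.Agent.P287Q.Pv.Of2

/-!
# Resolution of a rational map by a tower of blow-ups, over any base
-/

set_option linter.unusedSectionVars false

namespace Vale.Agent.P287D.Tw

open Set Function Topology Filter P287Q P269 P269.Holo H1

variable {n m : ℕ} {V : Var n} {κ : Type} [Fintype κ] {F : κ → (V.J → ℂ) → ℂ}

/-- The manifold is a tower over `V` and the local families are proportional to `F`. -/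
def TQ (F : κ → (V.J → ℂ) → ℂ) (X : Mf n) (f : X.M → κ → X.M → ℂ) : Prop :=
  X.Γ = ∅ ∧ ∃ (Y : Var n) (t : Nc.Tw V Y) (q : _), Of X Y.π Y.A q ∧ ∀ y ∈ Y.A,
    ∃ s : (Y.J → ℂ) → ℂ, ∀ᶠ z in 𝓝 y, z ∈ Y.A → ∀ i, F i (z ∘ t.dn.iJ) = s z * f (q y) i (q z)

theorem TQ.step {X : Mf n} {f : X.M → κ → X.M → ℂ} {C : Set X.M} {c : ℕ} (h : TQ F X f)
    (hC : X.Ctr C c) (hc : IsConnected C) : ∃ (X' : Mf n) (β : X'.M → X.M), Mf.IsBl β C ∧
      BijOn β (β ⁻¹' Cᶜ) Cᶜ ∧ ∀ f', Mf.WT β C f f' → TQ F X' f' := by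
  obtain ⟨hΓ, Y, t, q, h1, h5⟩ := h
  rcases (Nat.succ_le_of_lt hC.pos).eq_or_lt with rfl | h0
  · refine ⟨X, id, Mf.isBl_one hC, bijOn_id _, fun f' hw => ⟨hΓ, Y, t, q, h1, fun y hy => ?_⟩⟩
    obtain ⟨s, a⟩ := h5 y hy
    obtain ⟨r, -, b⟩ := hw (q y)
    refine ⟨fun z => s z * r (q z), ?_⟩
    filter_upwards [a, (h1.ev hy).1 b] with z a b hz i
    rw [a hz i, mul_assoc, ← b hz i]; rfl
  · have hn : c ≤ n := by
      obtain ⟨p, hp⟩ := hC.ne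
      obtain ⟨_, B, -, rfl, -⟩ := hC.sub p hp
      simpa using B.card_le_univ
    have pv := h1.pv_ctr hC.closed hC.sub
    obtain ⟨k, δ, u, -, b1, b2, -⟩ := chow Y.J Y.R Empty Y.π 0 _ _ pv fun τ _ y hy => by
      rwa [Subsingleton.elim τ 1, tw_one]
    have cut := b1.restrict inter_subset_left Y.pv.sub
    have cn := blc _ _ _ Y.π _ _ Y.A δ u n _ Y.pv pv (by omega) cut Subset.rfl Y.conn
    let Z : Ctr Y := ⟨n - c, _, k, δ, u, by omega, pv, h1.conn hC.closed hc, cut, b2,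
      cut.bl Y.pv pv, by convert cn using 1; exact ext fun w => ⟨fun a => ⟨a, a.1⟩, fun a => a.1⟩⟩
    obtain ⟨X', q', β, c1, c2, c3, -, c4⟩ := h1.bl hC.closed hC.pos hC.sub cut
    refine ⟨X', β, c2, c3, fun f' hw => ⟨c2.empty hΓ, Z.bl, t.step Z, q', c1, fun w hw' => ?_⟩⟩
    obtain ⟨s, a⟩ := h5 _ hw'.1
    obtain ⟨r, -, b⟩ := hw (q' w)
    refine ⟨fun z => s (z ∘ .inl) * r (q' z), ?_⟩
    filter_upwards [(an_pre Sum.inl w).continuousAt.eventually a, (c1.ev hw').1 b] with z a b hz i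
    rw [mul_assoc, ← b hz i, c4 z hz, c4 w hw']
    exact a hz.1 i

/-- **Principalisation of a linear system by a tower.** -/
theorem tow {δ : V.R → ℤ} (hF : ∀ k, ∀ y ∈ V.A, HolOn V.A (F k) y)
    (hd : ∀ k t, IsUnit t → ∀ y ∈ V.A, F k (scl V.π t y) = cha δ t * F k y)
    (h0 : ∃ k, ∃ y ∈ V.A, F k y ≠ 0) : ∃ (W : Var n) (t : Nc.Tw V W), ∀ y ∈ W.A,
      ∃ f : (W.J → ℂ) → κ → ℂ, HolOn W.A f y ∧ f y ≠ 0 ∧
        ∀ᶠ z in 𝓝 y, z ∈ W.A → ∃ c, ∀ k, F k (z ∘ t.dn.iJ) = c * f z k := by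
  obtain ⟨X₀, q₀, a1, a2⟩ := V.pv.exists_of V.conn.nonempty
  obtain ⟨f₀, a3⟩ := a1.exists_fm F
  obtain ⟨k₀, a4⟩ := h0
  obtain ⟨X, f, ⟨-, Y, t, q, h1, h5⟩, hc, hz⟩ := princC n κ (TQ F) (fun _ _ h => h.1)
    (fun X f C c h _ hC k _ => let ⟨X', β, b1, b2, b3⟩ := h.step hC k
      ⟨X', β, b1, b2, fun f' hw _ => b3 f' hw⟩) X₀ f₀
    ⟨a2, V, .refl, q₀, a1, fun y hy =>
      let ⟨τ, _, _, b⟩ := (a3.eq a1 (d := fun _ => δ) hd _).self_of_nhds y hy rfl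
      ⟨fun z => cha δ (τ z), b⟩⟩
    (a3.coh a1 (d := fun _ => δ) hd hF (fun y hy k => freq_ne V.conn.2 V.mfd (hF k₀) a4 hy
      (eventually_nhdsWithin_iff.2 (k.mono fun z b hz c => c (b hz k₀)))) (by simp [a2]))
  refine ⟨Y, t, fun y hy => ?_⟩
  obtain ⟨s, a⟩ := h5 y hy
  exact ⟨fun z k => f (q y) k (q z), .pi fun i => (h1.an_iff' hy).1 (hc.an _ i),
    fun k => (eq_empty_iff_forall_notMem.1 hz (q y)) fun i => congrFun k i,
    a.mono fun z b hz => ⟨_, b hz⟩⟩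

theorem dn_surj : ∀ {W : Var n} (t : Nc.Tw V W), ∀ x ∈ V.A, ∃ y ∈ W.A, y ∘ t.dn.iJ = x
  | _, .refl => fun x hx => ⟨x, hx, rfl⟩
  | _, .step (Y := Y) t c => fun x hx =>
    let ⟨y, a, b⟩ := dn_surj t x hx
    let ⟨u, d⟩ := c.cut.bl_surj Y.pv c.pv (by have := c.cod; omega) a
    ⟨Sum.elim y u, d, b⟩

theorem dn_bir : ∀ {W : Var n} (t : Nc.Tw V W), t.dn.Bir
  | _, .refl => Ext.bir_refl _
  | _, .step t c => c.down_bir.comp (dn_bir t)

theorem cha_pre {R R' : Type} [Fintype R] [Fintype R'] [DecidableEq R'] (ρ : R → R') (d : R → ℤ)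
    {t : R' → ℂ} (ht : IsUnit t) :
    cha d (t ∘ ρ) = cha (fun r' => ∑ r, if ρ r = r' then d r else 0) t := by
  simp only [cha, zpow_fsum (unit_iff.1 ht _)]
  rw [Finset.prod_comm]
  refine Finset.prod_congr rfl fun r _ => ?_
  rw [Finset.prod_eq_single (ρ r) (fun r' _ e => by simp [e.symm]) (by simp)]
  simp

variable {Y : Var m} {s : (V.J → ℂ) → Y.J → ℂ}

/-- Pull-back of a rational map. -/
theorem Rat.pre (h : Rat V Y s) {l : ℕ} {W : Var l} (ι : P287Q.Ext W V)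
    (h0 : ∃ y ∈ W.A, s (y ∘ ι.iJ) ∈ Ust Y.π) : Rat W Y fun y => s (y ∘ ι.iJ) := by
  obtain ⟨d, hd⟩ := h.eqv
  refine ⟨fun y hy => (h.hol _ (ι.map y hy)).comp (F := fun z : W.J → ℂ => z ∘ ι.iJ)
    (.of_an (an_pre _ y)) hy (.of_forall ι.map), ⟨fun r r' => ∑ a, if ι.iR a = r' then d r a else 0,
      fun t ht y hy => ?_⟩, fun y hy => h.mem _ (ι.map y hy), h0⟩
  simp only [scl_comp ι.blk, hd _ (unit_comp ht _) _ (ι.map y hy), cha_pre _ _ ht]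

/-- The choice with `j` in its block. -/
def upd {J R : Type} [DecidableEq R] {π : J → R} (σ : Sel π) (j : J) : Sel π :=
  ⟨update σ.1 (π j) j, fun r => by
    by_cases e : r = π j
    · rw [e, update_self]
    · rw [update_of_ne e, σ.2]⟩

theorem prod_upd {J R : Type} [Fintype R] [DecidableEq R] {π : J → R} (σ : Sel π) (j : J)
    (p : J → ℂ) : ∏ r, p ((upd σ j).1 r) = p j * ∏ r ∈ Finset.univ \ {π j}, p (σ.1 r) := by
  rw [← Finset.prod_update_of_mem (Finset.mem_univ _)]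
  exact Finset.prod_congr rfl fun r _ => apply_update (fun _ => p) σ.1 (π j) j r

/-- A criterion for a rational map to be a morphism. -/
theorem Rat.lf (h : Rat V Y s) {y : V.J → ℂ} (hy : y ∈ V.A) {f : (V.J → ℂ) → Sel Y.π → ℂ}
    (h1 : HolOn V.A f y) (h2 : f y ≠ 0)
    (h3 : ∀ᶠ z in 𝓝 y, z ∈ V.A → ∃ c, ∀ σ : Sel Y.π, ∏ r, s z (σ.1 r) = c * f z σ) :
    ∃ u, Lf V Y s u y := by
  obtain ⟨σ, a⟩ := ne_iff.1 h2
  have b : ∀ z ∈ V.A, HolOn V.A f z → HolOn V.A (fun z j => f z (upd σ j)) z := fun z hz k =>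
    k.comp_an (G := fun p => p ∘ upd σ) hz (an_pre _ _)
  have c : ∀ p : Sel Y.π → ℂ, p σ ≠ 0 → (fun j => p (upd σ j)) ∈ Ust Y.π := fun p k =>
    ust_of_sel σ fun r => by
      rwa [show upd σ (σ.1 r) = σ from Subtype.ext (update_eq_self_iff.2 (by rw [σ.2]))]
  refine ⟨_, b y hy h1, c _ a, ?_⟩
  filter_upwards [holOn_ev h1, h1.ev hy (p := fun p => p σ ≠ 0)
    ((continuous_apply σ).continuousAt.eventually_ne a), h3.eventually_nhds] with z k1 k2 k3 hz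
  refine (Crs.lim ((b z hz k1).tendsto hz) ((h.hol z hz).tendsto hz) (((h.freq hz).and_eventually
    (eventually_nhdsWithin_iff.2 k3)).mono fun v ⟨v1, e, v2⟩ j j' k => ?_)).scl (c _ (k2 hz))
  obtain ⟨σ', v3⟩ := exists_sel v1
  refine mul_left_cancel₀ (left_ne_zero_of_mul (v2 σ' ▸ Finset.prod_ne_zero_iff.2 fun r _ => v3 r :))
    ?_
  rw [← mul_assoc, ← mul_assoc, ← v2, ← v2, prod_upd, prod_upd, k]
  ring

/-- **Resolution of a rational map by a tower.** -/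
theorem Rat.res (h : Rat V Y s) : ∃ (W : Var n) (t : Nc.Tw V W),
    Rat W Y (fun y => s (y ∘ t.dn.iJ)) ∧ Reg W Y fun y => s (y ∘ t.dn.iJ) := by
  obtain ⟨d, hd⟩ := h.eqv
  obtain ⟨x, hx, a⟩ := h.ne
  obtain ⟨σ, b⟩ := exists_sel a
  obtain ⟨W, t, k⟩ := tow (V := V) (F := fun (σ : Sel Y.π) x => ∏ r, s x (σ.1 r)) (δ := ∑ r, d r)
    (fun σ y hy => holOn_sel hy (h.hol y hy) σ.1) (fun σ t ht y hy => by
      simp only [hd t ht y hy, scl, σ.2, Finset.prod_mul_distrib, cha, Finset.sum_apply,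
        zpow_fsum (unit_iff.1 ht _)]
      rw [Finset.prod_comm]) ⟨σ, x, hx, Finset.prod_ne_zero_iff.2 fun r _ => b r⟩
  have h' := h.pre t.dn (let ⟨y, c, e⟩ := dn_surj t x hx; ⟨y, c, e ▸ a⟩)
  exact ⟨W, t, h', fun y hy => let ⟨_, c1, c2, c3⟩ := k y hy; h'.lf hy c1 c2 c3⟩

end Vale.Agent.P287D.Tw
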